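import Vale.Agent.P134.LI.Stm2
import Vale.Agent.P134.SM.Ibp
import Vale.Agent.P134.H3.Affine
import Mathlib.Analysis.Calculus.ContDiff.Convolution

/-! P134, package R3: the cut-offs `StCut` (around an arbitrary set) and `StCutR` (at infinity). -/

set_option linter.all false

namespace Vale.Agent.P134.H287

open Vale.Agent.P134 Vale.Agent.P134.SM Vale.Agent.P134.LI MeasureTheory Filter Topology
open scoped Convolution

theorem stCutR : StCutR := by
  obtain ⟨C, hC, h⟩ := exists_rc_bound 3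
  have he : ∀ x : R3, dsq 0 x = eno x ^ 2 := by
    intro x; rw [eno_sq, dsq_eq_esq, sub_zero]
  refine ⟨C, by linarith, fun R hR => ⟨rc 0 R, rc_contDiff 0 R (k := 2), fun x =>
    ⟨rc_nonneg _ _ _, rc_le_one _ _ _⟩, ?_, ?_, fun x i => (h 0 R x hR).1 i,
    fun x i j => (h 0 R x hR).2.2.1 j i⟩⟩
  · intro x hx
    refine rc_one hR ?_
    rw [mem_eb, he]
    have := eno_nonneg x
    gcongr
  · intro x hx
    refine chi_zero ?_
    rw [le_div_iff₀ (by positivity), he]
    have : (2 * R) ^ 2 ≤ eno x ^ 2 := by gcongr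
    linarith

/-- convolution of the indicator of `A` with `k`. -/
noncomputable def cv (A : Set R3) (k : R3 → ℝ) : R3 → ℝ :=
  (A.indicator fun _ => (1:ℝ)) ⋆[ContinuousLinearMap.mul ℝ ℝ, volume] k

lemma cv_apply (A : Set R3) (k : R3 → ℝ) (x : R3) :
    cv A k x = ∫ t, (A.indicator (fun _ => (1:ℝ)) t) * k (x - t) := rfl

lemma locInt_ind {A : Set R3} (hA : MeasurableSet A) :
    LocallyIntegrable (A.indicator fun _ => (1:ℝ)) (volume : Measure R3) :=
  (locallyIntegrable_const (1:ℝ)).indicator hA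

lemma pd_cv {A : Set R3} (hA : MeasurableSet A) {k : R3 → ℝ} (hk : ContDiff ℝ 1 k)
    (hc : HasCompactSupport k) (i : Fin 3) : pd i (cv A k) = cv A (pd i k) := by
  funext x
  have h := hc.hasFDerivAt_convolution_right (ContinuousLinearMap.mul ℝ ℝ)
    (locInt_ind hA) hk x
  unfold pd cv
  rw [h.fderiv]
  rw [convolution_precompR_apply (ContinuousLinearMap.mul ℝ ℝ) (locInt_ind hA)
    (hc.fderiv (𝕜 := ℝ)) (hk.continuous_fderiv one_ne_zero)]

lemma cv_contDiff {A : Set R3} (hA : MeasurableSet A) {m : ℕ} {k : R3 → ℝ} (hk : ContDiff ℝ m k)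
    (hc : HasCompactSupport k) : ContDiff ℝ m (cv A k) :=
  hc.contDiff_convolution_right (ContinuousLinearMap.mul ℝ ℝ) (locInt_ind hA) hk

lemma cv_abs_le (A : Set R3) {k : R3 → ℝ} (hk : Continuous k)
    (hc : HasCompactSupport k) (x : R3) : |cv A k x| ≤ ∫ t, |k t| := by
  have hi : Integrable (fun t => |k t|) := (hk.abs).integrable_of_hasCompactSupport hc.abs
  have e : ∫ t, |k t| = ∫ t, |k (x - t)| := by
    rw [← integral_sub_left_eq_self (fun t => |k t|) volume x]
  rw [cv_apply, e, ← Real.norm_eq_abs]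
  refine norm_integral_le_of_norm_le (hi.comp_sub_left x) (Eventually.of_forall fun t => ?_)
  rw [norm_mul, Real.norm_eq_abs (k _)]
  by_cases ht : t ∈ A
  · rw [Set.indicator_of_mem ht]; simp
  · rw [Set.indicator_of_notMem ht]; simp

lemma eno_tri (x y z : R3) : eno (x - z) ≤ eno (x - y) + eno (y - z) := by
  have h := sqrt_dsq_triangle z y x
  rw [dsq_eq_esq, dsq_eq_esq, dsq_eq_esq] at h
  unfold eno
  linarith

lemma mo_eno {z : R3} (h : H3.mo z ≠ 0) : eno z ≤ 2 := by
  have h1 : z ∈ H3.KK 3 := by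
    by_contra hz; exact h (H3.mo_zero hz)
  have h2 : rho Finset.univ z ≤ 2 := h1
  have h3 : esq z ≤ 2 := h2
  unfold eno
  rw [Real.sqrt_le_left (by norm_num)]
  linarith

lemma isClosed_far (B : Set R3) (r : ℝ) : IsClosed {x | Far B r x} := by
  have : {x | Far B r x} = ⋂ b ∈ B, {x | r ≤ eno (x - b)} := by
    ext x; simp [Far]
  rw [this]
  refine isClosed_biInter fun b _ => isClosed_le continuous_const ?_
  exact continuous_eno.comp (continuous_id.sub continuous_const)

/-- unit scale. -/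
lemma cut_unit : ∃ C : ℝ, 0 < C ∧ ∀ B : Set R3,
  ∃ χ : R3 → ℝ, ContDiff ℝ 2 χ ∧ (∀ x, 0 ≤ χ x ∧ χ x ≤ 1) ∧
    (∀ x, ¬ Far B 10 x → χ x = 0) ∧ (∀ x, Far B 14 x → χ x = 1) ∧
    (∀ x i, |pd i χ x| ≤ C) ∧ (∀ x i j, |pd i (pd j χ) x| ≤ C) := by
  have hm2 : ContDiff ℝ 2 (H3.mo : R3 → ℝ) := H3.mo_contDiff 2
  have hm1 : ContDiff ℝ 1 (H3.mo : R3 → ℝ) := H3.mo_contDiff 1
  have hp1 : ∀ j, ContDiff ℝ 1 (pd j (H3.mo : R3 → ℝ)) := fun j => contDiff_pd_one hm2
  have hp0 : ∀ i j, Continuous (pd i (pd j (H3.mo : R3 → ℝ))) := fun i j =>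
    continuous_pd (hp1 j)
  have hc1 : ∀ j, HasCompactSupport (pd j (H3.mo : R3 → ℝ)) := fun j => by
    exact (H3.mo_hcs).of_isClosed_subset (isClosed_tsupport _) (tsupport_pd_subset _ _)
  have hc2 : ∀ i j, HasCompactSupport (pd i (pd j (H3.mo : R3 → ℝ))) := fun i j => by
    exact (hc1 j).of_isClosed_subset (isClosed_tsupport _) (tsupport_pd_subset _ _)
  set C : ℝ := 1 + ∑ j, (∫ t : R3, |pd j H3.mo t|) + ∑ i, ∑ j, ∫ t : R3, |pd i (pd j H3.mo) t|
    with hC
  have n1 : ∀ j, 0 ≤ ∫ t : R3, |pd j H3.mo t| := fun j =>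
    integral_nonneg fun t => abs_nonneg _
  have n2 : ∀ i j, 0 ≤ ∫ t : R3, |pd i (pd j H3.mo) t| := fun i j =>
    integral_nonneg fun t => abs_nonneg _
  have s1 : 0 ≤ ∑ j, (∫ t : R3, |pd j H3.mo t|) := Finset.sum_nonneg fun j _ => n1 j
  have s2 : 0 ≤ ∑ i, ∑ j, ∫ t : R3, |pd i (pd j H3.mo) t| :=
    Finset.sum_nonneg fun i _ => Finset.sum_nonneg fun j _ => n2 i j
  refine ⟨C, by linarith, fun B => ?_⟩
  set A : Set R3 := {x | Far B 12 x} with hAdef
  have hA : MeasurableSet A := (isClosed_far B 12).measurableSet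
  have hint : Integrable (H3.mo : R3 → ℝ) :=
    (hm1.continuous).integrable_of_hasCompactSupport H3.mo_hcs
  refine ⟨cv A H3.mo, cv_contDiff hA (m := 2) hm2 H3.mo_hcs, fun x => ⟨?_, ?_⟩, ?_, ?_, ?_, ?_⟩
  · rw [cv_apply]
    refine integral_nonneg fun t => mul_nonneg ?_ (H3.mo_nonneg (by norm_num) _)
    exact Set.indicator_nonneg (fun _ _ => zero_le_one) _
  · have h := cv_abs_le A hm1.continuous H3.mo_hcs x
    have e : ∫ t : R3, |H3.mo t| = 1 := by
      rw [← H3.integral_mo (N := 3) (by norm_num)]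
      exact integral_congr_ae (Eventually.of_forall fun t =>
        abs_of_nonneg (H3.mo_nonneg (by norm_num) _))
    exact (le_abs_self _).trans (h.trans e.le)
  · intro x hx
    rw [cv_apply]
    rw [show (0:ℝ) = ∫ t : R3, (0:ℝ) by simp]
    refine integral_congr_ae (Eventually.of_forall fun t => ?_)
    simp only
    by_cases hmo : H3.mo (x - t) = 0
    · rw [hmo, mul_zero]
    · have h1 := mo_eno hmo
      have ht : t ∉ A := by
        intro ht
        apply hx
        intro b hb
        have h2 : 12 ≤ eno (t - b) := ht b hb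
        have h3 := eno_tri t x b
        have h4 : eno (t - x) = eno (x - t) := by
          unfold eno esq
          congr 1
          refine Finset.sum_congr rfl fun i _ => ?_
          simp only [Pi.sub_apply]; ring
        linarith
      rw [Set.indicator_of_notMem ht, zero_mul]
  · intro x hx
    rw [cv_apply]
    have e : ∫ t : R3, H3.mo (x - t) = 1 := by
      rw [integral_sub_left_eq_self (fun t => H3.mo t) volume x]
      exact H3.integral_mo (by norm_num)
    refine Eq.trans (integral_congr_ae (Eventually.of_forall fun t => ?_)) e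
    simp only
    by_cases hmo : H3.mo (x - t) = 0
    · rw [hmo, mul_zero]
    · have h1 := mo_eno hmo
      have ht : t ∈ A := by
        intro b hb
        have h2 : 14 ≤ eno (x - b) := hx b hb
        have h3 := eno_tri x t b
        linarith
      rw [Set.indicator_of_mem ht, one_mul]
  · intro x i
    rw [pd_cv hA hm1 H3.mo_hcs]
    refine (cv_abs_le A (hp1 i).continuous (hc1 i) x).trans ?_
    have := Finset.single_le_sum (f := fun j => ∫ t : R3, |pd j H3.mo t|)
      (fun j _ => n1 j) (Finset.mem_univ i)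
    linarith
  · intro x i j
    rw [pd_cv hA hm1 H3.mo_hcs, pd_cv hA (hp1 j) (hc1 j)]
    refine (cv_abs_le A (hp0 i j) (hc2 i j) x).trans ?_
    have a1 := Finset.single_le_sum (f := fun i => ∑ j, ∫ t : R3, |pd i (pd j H3.mo) t|)
      (fun i _ => Finset.sum_nonneg fun j _ => n2 i j) (Finset.mem_univ i)
    have a2 := Finset.single_le_sum (f := fun j => ∫ t : R3, |pd i (pd j H3.mo) t|)
      (fun j _ => n2 i j) (Finset.mem_univ j)
    linarith

theorem stCut : StCut := by
  obtain ⟨C, hC, h⟩ := cut_unit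
  refine ⟨64 * C, by positivity, fun B W hW => ?_⟩
  set c : ℝ := 8 / W with hc
  have hc0 : 0 < c := by positivity
  obtain ⟨χ, h1, h2, h3, h4, h5, h6⟩ := h ((fun b => c • b) '' B)
  have hd : Differentiable ℝ χ := h1.differentiable (by norm_num)
  have hpd : ∀ j, pd j (fun x => χ (0 + c • x)) = fun x => c * pd j χ (0 + c • x) := by
    intro j; funext x; exact H3.pd_dil hd 0 c x j
  have hpp : ∀ i j x, pd i (pd j (fun x => χ (0 + c • x))) x
      = c * (c * pd i (pd j χ) (0 + c • x)) := by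
    intro i j x
    rw [hpd j]
    have hpj : ContDiff ℝ 1 (pd j χ) := contDiff_pd_one h1
    have hdj : Differentiable ℝ (pd j χ) := hpj.differentiable (by norm_num)
    have e := H3.pd_dil hdj 0 c x i
    have hd2 : Differentiable ℝ (fun x => pd j χ (0 + c • x)) :=
      (H3.dil_contDiff (k := 1) hpj 0 c).differentiable (by norm_num)
    rw [pd_mul (f := fun _ => c) (differentiableAt_const _) (hd2 x), pd_const, e]
    ring
  have hen : ∀ x b : R3, eno (c • x - c • b) = c * eno (x - b) := by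
    intro x b
    have e := dsq_smul c b x
    rw [dsq_eq_esq, dsq_eq_esq] at e
    unfold eno
    rw [e, Real.sqrt_mul (by positivity), Real.sqrt_sq hc0.le]
  have hfar : ∀ r x, Far ((fun b => c • b) '' B) (c * r) (0 + c • x) ↔ Far B r x := by
    intro r x
    unfold Far
    simp only [Set.forall_mem_image, zero_add, hen]
    refine forall_congr' fun b => forall_congr' fun _ => ?_
    exact mul_le_mul_iff_of_pos_left hc0
  have e8 : (10:ℝ) = c * (5 / 4 * W) := by rw [hc]; field_simp; norm_num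
  have e16 : (14:ℝ) = c * (7 / 4 * W) := by rw [hc]; field_simp; norm_num
  refine ⟨fun x => χ (0 + c • x), H3.dil_contDiff (k := 2) h1 0 c, fun x => h2 _, ?_, ?_, ?_, ?_⟩
  · intro x hx
    refine h3 _ ?_
    rw [e8, hfar]; exact hx
  · intro x hx
    refine h4 _ ?_
    rw [e16, hfar]; exact hx
  · intro x i
    rw [hpd i]
    simp only
    rw [abs_mul, abs_of_pos hc0]
    calc c * |pd i χ (0 + c • x)| ≤ c * C := by gcongr; exact h5 _ _
      _ = 8 * C / W := by rw [hc]; ring
      _ ≤ 64 * C / W := by gcongr; norm_num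
  · intro x i j
    rw [hpp i j x, abs_mul, abs_mul, abs_of_pos hc0]
    calc c * (c * |pd i (pd j χ) (0 + c • x)|) ≤ c * (c * C) := by gcongr; exact h6 _ _ _
      _ = 64 * C / W ^ 2 := by rw [hc]; ring

end Vale.Agent.P134.H287
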